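import Vale.Agent.P079.Full.Main

/-!
Every reflexive Banach space has the fixed point property for nonexpansive maps.
-/

open Vale.Agent.P079

universe u

theorem Vale.Agent.Results.P079.ReflexiveFPP.result :
    ∀ (X : Type u) [NormedAddCommGroup X] [NormedSpace ℝ X] [CompleteSpace X],
      IsReflexiveSpace X → HasFPP X :=
  fun X _ _ _ href => Full.hasFPP_of_reflexive X href
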